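import Vale.Agent.Lib.P183.L7.FieldChecks

/-! Kernel checks for the dihedral subgroups of orders 18, 42 and 126 of SL(2,64). -/

namespace Vale.Agent.Lib.P183.L7

/-- Membership in a dihedral subgroup: the form `isT` or `isR` with eigenvalue in `mask`. -/
def dp (mask : Nat) (m : NM) : Bool :=
  or (and (isT m) (bit mask (lamT m))) (and (isR m) (bit mask (lamR m)))

/-- All natural numbers below 64. -/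
def allM : Nat := 18446744073709551615

/-- The 126 matrices of the normalizer of the torus containing the element of order three. -/
def forms : List NM := [
   ⟨0, 1, 1, 1⟩, ⟨1, 0, 0, 1⟩, ⟨1, 1, 1, 0⟩, ⟨6, 51, 51, 53⟩, ⟨6, 53, 53, 51⟩, ⟨11, 35, 35, 40⟩,
   ⟨11, 40, 40, 35⟩, ⟨14, 23, 23, 25⟩, ⟨14, 25, 25, 23⟩, ⟨15, 33, 33, 46⟩, ⟨15, 46, 46, 33⟩, ⟨20, 45, 45, 57⟩,
   ⟨20, 57, 57, 45⟩, ⟨22, 39, 39, 49⟩, ⟨22, 49, 49, 39⟩, ⟨23, 14, 14, 25⟩, ⟨23, 25, 25, 14⟩, ⟨24, 37, 37, 61⟩,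
   ⟨24, 61, 61, 37⟩, ⟨25, 14, 14, 23⟩, ⟨25, 23, 23, 14⟩, ⟨26, 44, 44, 54⟩, ⟨26, 54, 54, 44⟩, ⟨28, 34, 34, 62⟩,
   ⟨28, 62, 62, 34⟩, ⟨31, 43, 43, 52⟩, ⟨31, 52, 52, 43⟩, ⟨33, 15, 15, 46⟩, ⟨33, 46, 46, 15⟩, ⟨34, 28, 28, 62⟩,
   ⟨34, 62, 62, 28⟩, ⟨35, 11, 11, 40⟩, ⟨35, 40, 40, 11⟩, ⟨37, 24, 24, 61⟩, ⟨37, 61, 61, 24⟩, ⟨39, 22, 22, 49⟩,
   ⟨39, 49, 49, 22⟩, ⟨40, 11, 11, 35⟩, ⟨40, 35, 35, 11⟩, ⟨43, 31, 31, 52⟩, ⟨43, 52, 52, 31⟩, ⟨44, 26, 26, 54⟩,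
   ⟨44, 54, 54, 26⟩, ⟨45, 20, 20, 57⟩, ⟨45, 57, 57, 20⟩, ⟨46, 15, 15, 33⟩, ⟨46, 33, 33, 15⟩, ⟨49, 22, 22, 39⟩,
   ⟨49, 39, 39, 22⟩, ⟨51, 6, 6, 53⟩, ⟨51, 53, 53, 6⟩, ⟨52, 31, 31, 43⟩, ⟨52, 43, 43, 31⟩, ⟨53, 6, 6, 51⟩,
   ⟨53, 51, 51, 6⟩, ⟨54, 26, 26, 44⟩, ⟨54, 44, 44, 26⟩, ⟨57, 20, 20, 45⟩, ⟨57, 45, 45, 20⟩, ⟨61, 24, 24, 37⟩,
   ⟨61, 37, 37, 24⟩, ⟨62, 28, 28, 34⟩, ⟨62, 34, 34, 28⟩, ⟨0, 1, 1, 0⟩, ⟨1, 0, 1, 1⟩, ⟨1, 1, 0, 1⟩,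
   ⟨6, 51, 53, 6⟩, ⟨6, 53, 51, 6⟩, ⟨11, 35, 40, 11⟩, ⟨11, 40, 35, 11⟩, ⟨14, 23, 25, 14⟩, ⟨14, 25, 23, 14⟩,
   ⟨15, 33, 46, 15⟩, ⟨15, 46, 33, 15⟩, ⟨20, 45, 57, 20⟩, ⟨20, 57, 45, 20⟩, ⟨22, 39, 49, 22⟩, ⟨22, 49, 39, 22⟩,
   ⟨23, 14, 25, 23⟩, ⟨23, 25, 14, 23⟩, ⟨24, 37, 61, 24⟩, ⟨24, 61, 37, 24⟩, ⟨25, 14, 23, 25⟩, ⟨25, 23, 14, 25⟩,
   ⟨26, 44, 54, 26⟩, ⟨26, 54, 44, 26⟩, ⟨28, 34, 62, 28⟩, ⟨28, 62, 34, 28⟩, ⟨31, 43, 52, 31⟩, ⟨31, 52, 43, 31⟩,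
   ⟨33, 15, 46, 33⟩, ⟨33, 46, 15, 33⟩, ⟨34, 28, 62, 34⟩, ⟨34, 62, 28, 34⟩, ⟨35, 11, 40, 35⟩, ⟨35, 40, 11, 35⟩,
   ⟨37, 24, 61, 37⟩, ⟨37, 61, 24, 37⟩, ⟨39, 22, 49, 39⟩, ⟨39, 49, 22, 39⟩, ⟨40, 11, 35, 40⟩, ⟨40, 35, 11, 40⟩,
   ⟨43, 31, 52, 43⟩, ⟨43, 52, 31, 43⟩, ⟨44, 26, 54, 44⟩, ⟨44, 54, 26, 44⟩, ⟨45, 20, 57, 45⟩, ⟨45, 57, 20, 45⟩,
   ⟨46, 15, 33, 46⟩, ⟨46, 33, 15, 46⟩, ⟨49, 22, 39, 49⟩, ⟨49, 39, 22, 49⟩, ⟨51, 6, 53, 51⟩, ⟨51, 53, 6, 51⟩,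
   ⟨52, 31, 43, 52⟩, ⟨52, 43, 31, 52⟩, ⟨53, 6, 51, 53⟩, ⟨53, 51, 6, 53⟩, ⟨54, 26, 44, 54⟩, ⟨54, 44, 26, 54⟩,
   ⟨57, 20, 45, 57⟩, ⟨57, 45, 20, 57⟩, ⟨61, 24, 37, 61⟩, ⟨61, 37, 24, 61⟩, ⟨62, 28, 34, 62⟩, ⟨62, 34, 28, 62⟩]

/-- Every determinant one matrix of the form `isT` is listed. -/
def chkFormT : Bool :=
  loop (fun a => loop (fun b =>
    cond (Nat.beq (Nat.xor (fmul a (Nat.xor a b)) (fmul b b)) 1)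
      (forms.any (NM.beq ⟨a, b, b, Nat.xor a b⟩)) true) 64) 64

/-- Every determinant one matrix of the form `isR` is listed. -/
def chkFormR : Bool :=
  loop (fun a => loop (fun b =>
    cond (Nat.beq (Nat.xor (fmul a a) (fmul b (Nat.xor a b))) 1)
      (forms.any (NM.beq ⟨a, b, Nat.xor a b, a⟩)) true) 64) 64

theorem chkFormT_true : chkFormT = true := by decide +kernel
theorem chkFormR_true : chkFormR = true := by decide +kernel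

/-- Closure of a dihedral subgroup under products. -/
def dclosed (mask : Nat) : Bool :=
  forms.all fun x => cond (dp mask x)
    (forms.all fun y => cond (dp mask y) (dp mask (NM.mul x y)) true) true

/-- Closure of a dihedral subgroup under inverses. -/
def dinvd (mask : Nat) : Bool :=
  forms.all fun x => cond (dp mask x) (dp mask x.inv) true

theorem dclosed_C9 : dclosed C9m = true := by decide +kernel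
theorem dclosed_C21 : dclosed C21m = true := by decide +kernel
theorem dclosed_all : dclosed allM = true := by decide +kernel
theorem dinvd_C9 : dinvd C9m = true := by decide +kernel
theorem dinvd_C21 : dinvd C21m = true := by decide +kernel
theorem dinvd_all : dinvd allM = true := by decide +kernel

/-- Powers of the generator of order 63. -/
def pow5 : List NM := [
   ⟨1, 0, 0, 1⟩, ⟨11, 35, 35, 40⟩, ⟨51, 53, 53, 6⟩, ⟨22, 49, 49, 39⟩, ⟨20, 45, 45, 57⟩, ⟨52, 31, 31, 43⟩,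
   ⟨37, 61, 61, 24⟩, ⟨14, 25, 25, 23⟩, ⟨62, 34, 34, 28⟩, ⟨46, 15, 15, 33⟩, ⟨54, 26, 26, 44⟩, ⟨26, 54, 54, 44⟩,
   ⟨15, 46, 46, 33⟩, ⟨34, 62, 62, 28⟩, ⟨25, 14, 14, 23⟩, ⟨61, 37, 37, 24⟩, ⟨31, 52, 52, 43⟩, ⟨45, 20, 20, 57⟩,
   ⟨49, 22, 22, 39⟩, ⟨53, 51, 51, 6⟩, ⟨35, 11, 11, 40⟩, ⟨0, 1, 1, 1⟩, ⟨35, 40, 40, 11⟩, ⟨53, 6, 6, 51⟩,
   ⟨49, 39, 39, 22⟩, ⟨45, 57, 57, 20⟩, ⟨31, 43, 43, 52⟩, ⟨61, 24, 24, 37⟩, ⟨25, 23, 23, 14⟩, ⟨34, 28, 28, 62⟩,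
   ⟨15, 33, 33, 46⟩, ⟨26, 44, 44, 54⟩, ⟨54, 44, 44, 26⟩, ⟨46, 33, 33, 15⟩, ⟨62, 28, 28, 34⟩, ⟨14, 23, 23, 25⟩,
   ⟨37, 24, 24, 61⟩, ⟨52, 43, 43, 31⟩, ⟨20, 57, 57, 45⟩, ⟨22, 39, 39, 49⟩, ⟨51, 6, 6, 53⟩, ⟨11, 40, 40, 35⟩,
   ⟨1, 1, 1, 0⟩, ⟨40, 11, 11, 35⟩, ⟨6, 51, 51, 53⟩, ⟨39, 22, 22, 49⟩, ⟨57, 20, 20, 45⟩, ⟨43, 52, 52, 31⟩,
   ⟨24, 37, 37, 61⟩, ⟨23, 14, 14, 25⟩, ⟨28, 62, 62, 34⟩, ⟨33, 46, 46, 15⟩, ⟨44, 54, 54, 26⟩, ⟨44, 26, 26, 54⟩,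
   ⟨33, 15, 15, 46⟩, ⟨28, 34, 34, 62⟩, ⟨23, 25, 25, 14⟩, ⟨24, 61, 61, 37⟩, ⟨43, 31, 31, 52⟩, ⟨57, 45, 45, 20⟩,
   ⟨39, 49, 49, 22⟩, ⟨6, 53, 53, 51⟩, ⟨40, 35, 35, 11⟩]

/-- Powers of the generator of order 21. -/
def pow2 : List NM := [
   ⟨1, 0, 0, 1⟩, ⟨22, 49, 49, 39⟩, ⟨37, 61, 61, 24⟩, ⟨46, 15, 15, 33⟩, ⟨15, 46, 46, 33⟩, ⟨61, 37, 37, 24⟩,
   ⟨49, 22, 22, 39⟩, ⟨0, 1, 1, 1⟩, ⟨49, 39, 39, 22⟩, ⟨61, 24, 24, 37⟩, ⟨15, 33, 33, 46⟩, ⟨46, 33, 33, 15⟩,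
   ⟨37, 24, 24, 61⟩, ⟨22, 39, 39, 49⟩, ⟨1, 1, 1, 0⟩, ⟨39, 22, 22, 49⟩, ⟨24, 37, 37, 61⟩, ⟨33, 46, 46, 15⟩,
   ⟨33, 15, 15, 46⟩, ⟨24, 61, 61, 37⟩, ⟨39, 49, 49, 22⟩]

/-- Powers of the generator of order 9. -/
def pow3 : List NM := [
   ⟨1, 0, 0, 1⟩, ⟨14, 25, 25, 23⟩, ⟨25, 14, 14, 23⟩, ⟨0, 1, 1, 1⟩, ⟨25, 23, 23, 14⟩, ⟨14, 23, 23, 25⟩,
   ⟨1, 1, 1, 0⟩, ⟨23, 14, 14, 25⟩, ⟨23, 25, 25, 14⟩]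

/-- Each entry of the list is the previous one times `g`. -/
def chainOK (g : NM) : List NM → Bool
  | [] => true
  | [_] => true
  | x :: y :: l => and (NM.beq (NM.mul x g) y) (chainOK g (y :: l))

/-- Every matrix of form `isT` with eigenvalue in `mask` is in the list `l`. -/
def powCover (mask : Nat) (l : List NM) : Bool :=
  forms.all fun y => cond (and (isT y) (bit mask (lamT y))) (l.any (NM.beq y)) true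

theorem chain5 : chainOK ⟨11, 35, 35, 40⟩ pow5 = true := by decide +kernel
theorem chain2 : chainOK ⟨22, 49, 49, 39⟩ pow2 = true := by decide +kernel
theorem chain3 : chainOK ⟨14, 25, 25, 23⟩ pow3 = true := by decide +kernel
theorem cover5 : powCover allM pow5 = true := by decide +kernel
theorem cover2 : powCover C21m pow2 = true := by decide +kernel
theorem cover3 : powCover C9m pow3 = true := by decide +kernel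

end Vale.Agent.Lib.P183.L7
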